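import Vale.Agent.Lib.P074.LB.Statements

/-!
# P074: from the real-valued stability estimate to admissibility of the exponent `1/4`
(`ENNReal` bookkeeping)
-/

namespace Vale.Agent.Lib.P074

open MeasureTheory ENNReal

variable {d : ℕ}

/-- The uniform measure on a compact set with nonempty interior is a probability measure. -/
lemma isProbabilityMeasure_unif' {K : Set (E d)} (hK : IsCompact K)
    (hint : (interior K).Nonempty) : IsProbabilityMeasure (unif K) := by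
  have hpos : 0 < volume K :=
    lt_of_lt_of_le (isOpen_interior.measure_pos volume hint) (measure_mono interior_subset)
  have hfin : volume K ≠ ⊤ := hK.measure_lt_top.ne
  refine ⟨?_⟩
  unfold unif
  rw [Measure.smul_apply, Measure.restrict_apply MeasurableSet.univ, Set.univ_inter, smul_eq_mul,
    ENNReal.inv_mul_cancel hpos.ne' hfin]

/-- If the image measure `ρ.map T` is a probability measure giving full mass to a compact set
`Y` contained in the closed ball of radius `R`, then `‖T x‖ ≤ R` for `ρ`-a.e. `x`. -/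
lemma ae_norm_le_of_map' {α : Type*} [MeasurableSpace α] {ρ : Measure α} {μ : Measure (E d)}
    {T : α → E d} (hT : Measurable T) (hmap : ρ.map T = μ) [IsProbabilityMeasure μ]
    {Y : Set (E d)} (hY : IsCompact Y) (hμY : μ Y = 1) {R : ℝ}
    (hR : Y ⊆ Metric.closedBall 0 R) : ∀ᵐ x ∂ρ, ‖T x‖ ≤ R := by
  have h0 : μ Yᶜ = 0 := by
    rw [measure_compl hY.measurableSet (measure_ne_top _ _), measure_univ, hμY]; simp
  have h1 : ∀ᵐ y ∂μ, y ∈ Y := by
    rw [ae_iff]; exact h0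
  rw [← hmap] at h1
  have h2 := ae_of_ae_map hT.aemeasurable h1
  filter_upwards [h2] with x hx
  simpa using hR hx

/-- A coupling of two probability measures concentrated on `Y ⊆ closedBall 0 R` is a
probability measure, and `‖p.1 - p.2‖ ≤ 2 R` almost everywhere for it. -/
lemma coupling_facts' {μ ν : Measure (E d)} [IsProbabilityMeasure μ] [IsProbabilityMeasure ν]
    {Y : Set (E d)} (hY : IsCompact Y) (hμY : μ Y = 1) (hνY : ν Y = 1) {R : ℝ}
    (hR : Y ⊆ Metric.closedBall 0 R) {π : Measure (E d × E d)} (h1 : π.map Prod.fst = μ)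
    (h2 : π.map Prod.snd = ν) :
    IsProbabilityMeasure π ∧ ∀ᵐ p ∂π, ‖p.1 - p.2‖ ≤ 2 * R := by
  have hπ : IsProbabilityMeasure π := by
    refine ⟨?_⟩
    have : (π.map Prod.fst) Set.univ = 1 := by rw [h1]; exact measure_univ
    rwa [Measure.map_apply measurable_fst MeasurableSet.univ, Set.preimage_univ] at this
  refine ⟨hπ, ?_⟩
  have a1 := ae_norm_le_of_map' (ρ := π) measurable_fst h1 hY hμY hR
  have a2 := ae_norm_le_of_map' (ρ := π) measurable_snd h2 hY hνY hR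
  filter_upwards [a1, a2] with p hp1 hp2
  calc ‖p.1 - p.2‖ ≤ ‖p.1‖ + ‖p.2‖ := norm_sub_le _ _
    _ ≤ 2 * R := by linarith

/-- The `L^2` norm as a lower integral of the squared norm. -/
lemma eLpNorm_two_eq' (f : E d → E d) (μ : Measure (E d)) :
    eLpNorm f 2 μ = (∫⁻ x, ENNReal.ofReal (‖f x‖ ^ 2) ∂μ) ^ (1 / 2 : ℝ) := by
  rw [eLpNorm_eq_lintegral_rpow_enorm_toReal (by norm_num) (by norm_num)]
  have h : ∀ x, ENNReal.ofReal (‖f x‖ ^ 2) = ‖f x‖ₑ ^ 2 := fun x => by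
    rw [← ofReal_norm, ENNReal.ofReal_pow (norm_nonneg _)]
  simp only [h]
  simp

/-- `W_1 ≤ W_2` for probability measures. -/
lemma W1_le_W2 (μ ν : Measure (E d)) [IsProbabilityMeasure μ] : W1 μ ν ≤ W2 μ ν := by
  unfold W1 W2
  rw [one_div, ENNReal.le_rpow_inv_iff (by norm_num : (0 : ℝ) < 2)]
  refine le_iInf₂ fun π hπ => ?_
  rw [← ENNReal.le_rpow_inv_iff (by norm_num : (0 : ℝ) < 2)]
  refine (iInf₂_le π hπ).trans ?_
  have : IsProbabilityMeasure π := by
    refine ⟨?_⟩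
    have : (π.map Prod.fst) Set.univ = 1 := by rw [hπ.1]; exact measure_univ
    rwa [Measure.map_apply measurable_fst MeasurableSet.univ, Set.preimage_univ] at this
  have key := eLpNorm_le_eLpNorm_of_exponent_le (p := 1) (q := 2) (by norm_num)
    (f := fun p : E d × E d => p.1 - p.2) (μ := π)
    (measurable_fst.sub measurable_snd).aestronglyMeasurable
  rw [eLpNorm_one_eq_lintegral_enorm,
    eLpNorm_eq_lintegral_rpow_enorm_toReal (by norm_num) (by norm_num)] at key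
  have h1 : ∀ p : E d × E d, ENNReal.ofReal ‖p.1 - p.2‖ = ‖p.1 - p.2‖ₑ := fun p =>
    ofReal_norm _
  have h2 : ∀ p : E d × E d, ENNReal.ofReal (‖p.1 - p.2‖ ^ 2) = ‖p.1 - p.2‖ₑ ^ 2 := fun p => by
    rw [← ofReal_norm, ENNReal.ofReal_pow (norm_nonneg _)]
  simp only [h1, h2]
  simpa using key

theorem admissible1_of_real (d : ℕ) (hreal : RealStatement d) : Admissible1 d (1 / 4) := by
  intro K hK hconv hint Y hY hYne
  obtain ⟨C0, hC0, h⟩ := hreal K hK hconv hint Y hY hYne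
  obtain ⟨R, hR⟩ : ∃ R : ℝ, Y ⊆ Metric.closedBall 0 R := hY.isBounded.subset_closedBall 0
  refine ⟨Real.sqrt C0 + 1, ?_⟩
  intro μ ν hμ hν hμY hνY T S hT hS
  have := isProbabilityMeasure_unif' hK hint
  have hcpos : (0 : ℝ) < Real.sqrt C0 + 1 := by positivity
  have aT := ae_norm_le_of_map' hT.1 hT.2.1 hY hμY hR
  have aS := ae_norm_le_of_map' hS.1 hS.2.1 hY hνY hR
  have hbd : ∀ᵐ x ∂(unif K), ‖T x - S x‖ ^ 2 ≤ (2 * R) ^ 2 := by
    filter_upwards [aT, aS] with x h1 h2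
    have : ‖T x - S x‖ ≤ 2 * R := (norm_sub_le _ _).trans (by linarith)
    exact pow_le_pow_left₀ (norm_nonneg _) this 2
  have hmeas : Measurable (fun x => ‖T x - S x‖ ^ 2) := ((hT.1.sub hS.1).norm).pow_const 2
  have hint2 : Integrable (fun x => ‖T x - S x‖ ^ 2) (unif K) :=
    Integrable.of_bound hmeas.aestronglyMeasurable ((2 * R) ^ 2) (by
      filter_upwards [hbd] with x hx
      rwa [Real.norm_of_nonneg (by positivity)])
  have hA0 : 0 ≤ ∫ x, ‖T x - S x‖ ^ 2 ∂(unif K) := integral_nonneg fun x => by positivity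
  have hL : eLpNorm (fun x => T x - S x) 2 (unif K)
      = ENNReal.ofReal (Real.sqrt (∫ x, ‖T x - S x‖ ^ 2 ∂(unif K))) := by
    rw [eLpNorm_two_eq', ← ofReal_integral_eq_lintegral_ofReal hint2
      (ae_of_all _ fun x => by positivity), Real.sqrt_eq_rpow,
      ENNReal.ofReal_rpow_of_nonneg hA0 (by norm_num)]
  have key : ∀ π : Measure (E d × E d), π.map Prod.fst = μ → π.map Prod.snd = ν →
      eLpNorm (fun x => T x - S x) 2 (unif K) ≤
        ENNReal.ofReal (Real.sqrt C0 + 1) *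
          (∫⁻ p, ENNReal.ofReal ‖p.1 - p.2‖ ∂π) ^ (1 / 4 : ℝ) := by
    intro π h1 h2
    obtain ⟨hπ, hb⟩ := coupling_facts' hY hμY hνY hR h1 h2
    have hintπ : Integrable (fun p : E d × E d => ‖p.1 - p.2‖) π :=
      Integrable.of_bound (measurable_fst.sub measurable_snd).norm.aestronglyMeasurable (2 * R)
        (by filter_upwards [hb] with p hp; rwa [Real.norm_of_nonneg (norm_nonneg _)])
    have hw : ∫⁻ p, ENNReal.ofReal ‖p.1 - p.2‖ ∂π = ENNReal.ofReal (∫ p, ‖p.1 - p.2‖ ∂π) :=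
      (ofReal_integral_eq_lintegral_ofReal hintπ (ae_of_all _ fun p => norm_nonneg _)).symm
    have hA := h μ ν hμ hν hμY hνY T S hT hS π h1 h2
    have hw0 : 0 ≤ ∫ p, ‖p.1 - p.2‖ ∂π := integral_nonneg fun p => norm_nonneg _
    rw [hL, hw, ENNReal.ofReal_rpow_of_nonneg hw0 (by norm_num),
      ← ENNReal.ofReal_mul hcpos.le]
    apply ENNReal.ofReal_le_ofReal
    have e2 : Real.sqrt (C0 * Real.sqrt (∫ p, ‖p.1 - p.2‖ ∂π))
        = Real.sqrt C0 * (∫ p, ‖p.1 - p.2‖ ∂π) ^ (1 / 4 : ℝ) := by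
      rw [Real.sqrt_mul hC0, Real.sqrt_eq_rpow (∫ p, ‖p.1 - p.2‖ ∂π),
        Real.sqrt_eq_rpow ((∫ p, ‖p.1 - p.2‖ ∂π) ^ (1 / 2 : ℝ)), ← Real.rpow_mul hw0]
      norm_num
    have hq : 0 ≤ (∫ p, ‖p.1 - p.2‖ ∂π) ^ (1 / 4 : ℝ) := Real.rpow_nonneg hw0 _
    calc Real.sqrt (∫ x, ‖T x - S x‖ ^ 2 ∂(unif K))
        ≤ Real.sqrt (C0 * Real.sqrt (∫ p, ‖p.1 - p.2‖ ∂π)) := Real.sqrt_le_sqrt hA
      _ = Real.sqrt C0 * (∫ p, ‖p.1 - p.2‖ ∂π) ^ (1 / 4 : ℝ) := e2
      _ ≤ (Real.sqrt C0 + 1) * (∫ p, ‖p.1 - p.2‖ ∂π) ^ (1 / 4 : ℝ) := by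
          apply mul_le_mul_of_nonneg_right _ hq
          linarith
  have hc0 : ENNReal.ofReal (Real.sqrt C0 + 1) ≠ 0 := by
    simp only [ne_eq, ENNReal.ofReal_eq_zero, not_le]; exact hcpos
  have hctop : ENNReal.ofReal (Real.sqrt C0 + 1) ≠ ⊤ := ENNReal.ofReal_ne_top
  rw [mul_comm, ← ENNReal.div_le_iff_le_mul (Or.inl hc0) (Or.inl hctop)]
  unfold W1
  rw [one_div, ENNReal.le_rpow_inv_iff (by norm_num : (0 : ℝ) < 4)]
  refine le_iInf₂ fun π hπ => ?_
  rw [← ENNReal.le_rpow_inv_iff (by norm_num : (0 : ℝ) < 4), ← one_div,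
    ENNReal.div_le_iff_le_mul (Or.inl hc0) (Or.inl hctop), mul_comm]
  exact key π hπ.1 hπ.2

theorem admissible_of_real (d : ℕ) (hreal : RealStatement d) :
    Admissible1 d (1 / 4) ∧ Admissible d (1 / 4) := by
  have h1 := admissible1_of_real d hreal
  refine ⟨h1, ?_⟩
  intro K hK hconv hint Y hY hYne
  obtain ⟨C, hC⟩ := h1 K hK hconv hint Y hY hYne
  refine ⟨C, ?_⟩
  intro μ ν hμ hν hμY hνY T S hT hS
  refine (hC μ ν hμ hν hμY hνY T S hT hS).trans ?_
  gcongr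
  exact W1_le_W2 μ ν

end Vale.Agent.Lib.P074
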